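import Vale.Agent.P095.Bridge

namespace Vale.Agent.Results.P095.ConjA

open Vale.Agent.P095.S

theorem result : (∃ (Z : Type) (_ : CStarAlgebra Z), IsJS Z ∧ IsSSA Z) ∧
    ∀ (Z : Type) [CStarAlgebra Z], IsJS Z → IsSSA Z →
      ∀ (A : Type) [NonUnitalCStarAlgebra A] [TopologicalSpace.SeparableSpace A],
        IsSimple A → IsNuclear A → IsStable A Z →
      ∀ (G : Type) [Group G] [Countable G], IsAmenable G → ∀ α : Actions G A,
      ∀ (C : Type) [NonUnitalCStarAlgebra C] (t : A → Z → C), IsTensor t → ConjToTensor α t :=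
  ⟨Vale.Agent.P095.br_ex, Vale.Agent.P095.br_main⟩

end Vale.Agent.Results.P095.ConjA
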