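import Vale.Agent.P095.Bridge

namespace Vale.Agent.Results.P095.ConjAJS

open Vale.Agent.P095.S

theorem result : ∃ (Z : Type) (_ : CStarAlgebra Z), IsJS Z ∧
    ∀ (A : Type) [NonUnitalCStarAlgebra A] [TopologicalSpace.SeparableSpace A],
      IsSimple A → IsNuclear A → IsStable A Z →
      ∀ (G : Type) [Group G] [Countable G], IsAmenable G → ∀ α : Actions G A,
      ∃ (C : Type) (_ : NonUnitalCStarAlgebra C) (t : A → Z → C), IsTensor t ∧ ConjToTensor α t := by
  obtain ⟨Z, _, h1, h2⟩ := Vale.Agent.P095.br_ex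
  refine ⟨Z, _, h1, fun A _ _ hs hn hz G _ _ hG α => ?_⟩
  obtain ⟨C, _, t, ht, -⟩ := id hz
  exact ⟨C, _, t, ht, Vale.Agent.P095.br_main Z h1 h2 A hs hn hz G hG α C t ht⟩

end Vale.Agent.Results.P095.ConjAJS
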